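import Vale.Agent.N344X.Defs
import Vale.Agent.N344.Bridge

/-!
P344: from derivations to listed circuits; the consequences of a bound for the rate.
-/

namespace Vale.Agent.N344X

open Matrix Vale.Agent.P344 Vale.Agent.P344.R2.H715 Vale.Agent.P344.R2.H527 Vale.Agent.P344X18
  Vale.Agent.N344

variable {ι : Type}

theorem val_snoc {s : ℕ} (x : ι → ℂ) (w : Fin s → ℂ) (z : ℂ) (u : Option (ι ⊕ Fin s)) :
    val x (Fin.snoc w z : Fin (s + 1) → ℂ) (u.map (Sum.map id Fin.castSucc)) = val x w u := by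
  rcases u with _ | i | g <;> simp [val]

theorem prog_of_steps {s : ℕ} {V : Set (ℕ × ((ι → ℂ) → ℂ))} (h : Steps Set.univ (inputs ι) s V) :
    ∃ p : Prog ι s, ∀ q ∈ V, ∃ u, ∀ x, val x (p.run x) u = q.2 x := by
  have key : ∀ {s : ℕ} {V : Set (ℕ × ((ι → ℂ) → ℂ))} (p : Prog ι s) (p' : Prog ι (s + 1))
      (r : ℕ × ((ι → ℂ) → ℂ)), (∀ q ∈ V, ∃ u, ∀ x, val x (p.run x) u = q.2 x) →
      (∀ x, p'.run x = Fin.snoc (p.run x) (r.2 x)) →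
      ∀ q ∈ insert r V, ∃ u, ∀ x, val x (p'.run x) u = q.2 x := by
    rintro s V p p' r hp hr q (rfl | hq)
    · exact ⟨some (.inr (Fin.last s)), fun x => by simp [hr, val]⟩
    · obtain ⟨u, hu⟩ := hp q hq
      exact ⟨_, fun x => by rw [hr, val_snoc, hu]⟩
  induction h with
  | zero =>
    refine ⟨.nil, ?_⟩
    rintro ⟨d, f⟩ ⟨-, rfl | ⟨k, rfl⟩⟩
    exacts [⟨none, fun _ => rfl⟩, ⟨some (.inl k), fun _ => rfl⟩]
  | add _ hu hv ih =>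
    obtain ⟨p, hp⟩ := ih
    obtain ⟨a, ha⟩ := hp _ hu
    obtain ⟨b, hb⟩ := hp _ hv
    exact ⟨.add p a b, key p _ _ hp fun x => by rw [Prog.run, ha, hb]; rfl⟩
  | sub _ hu hv ih =>
    obtain ⟨p, hp⟩ := ih
    obtain ⟨a, ha⟩ := hp _ hu
    obtain ⟨b, hb⟩ := hp _ hv
    exact ⟨.sub p a b, key p _ _ hp fun x => by rw [Prog.run, ha, hb]; rfl⟩
  | smul c _ hu _ ih =>
    obtain ⟨p, hp⟩ := ih
    obtain ⟨a, ha⟩ := hp _ hu
    exact ⟨.smul p c a, key p _ _ hp fun x => by rw [Prog.run, ha]; rfl⟩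

theorem gates_of_cost [Fintype ι] {s : ℕ} {A : Matrix ι ι ℂ} (h : Cost A s) :
    ∃ s' ≤ s, s' ∈ gates A := by
  obtain ⟨d0, h⟩ := h
  obtain ⟨s', hs', V, hV, hF⟩ := h.computes (D := ⊤) le_top
  obtain ⟨p, hp⟩ := prog_of_steps hV
  choose d _ hd using hF
  choose out hout using fun j => hp _ (hd j)
  exact ⟨s', hs', p, out, fun x j => hout j x⟩

theorem inf_le [Fintype ι] {s : ℕ} {A : Matrix ι ι ℂ} (h : Cost A s) : sInf (gates A) ≤ s := by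
  obtain ⟨s', h1, h2⟩ := gates_of_cost h
  exact (Nat.sInf_le h2).trans h1

theorem gates_nonempty [Fintype ι] (A : Matrix ι ι ℂ) : (gates A).Nonempty := by
  obtain ⟨s', -, h2⟩ := gates_of_cost (cost_naive A)
  exact ⟨s', h2⟩

theorem L_le_L (n : ℕ) : L n ≤ P344.L n := inf_le (cost_F n)

theorem zr_of_rt {α : ℝ} (h0 : 0 ≤ α) (h : ∃ C : ℝ, 0 ≤ C ∧ ∀ n : ℕ, 1 ≤ n →
    rt Cg n ≤ C * (n : ℝ) ^ α) : ∃ C : ℝ, 0 ≤ C ∧ ∀ n : ℕ, 1 ≤ n → zr n ≤ C * (n : ℝ) ^ α := by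
  obtain ⟨C, hC, h⟩ := h
  refine ⟨3 * C + 10, by positivity, fun n hn => ?_⟩
  have h1 : (1 : ℝ) ≤ (n : ℝ) ^ α := Real.one_le_rpow (by exact_mod_cast hn) h0
  have h2 := zr_le_rt n
  have h3 := h n hn
  linarith

theorem F_of_rt {α β : ℝ} (h0 : 0 < α) (h1 : α < 1) (hβ : α < β) (h : ∃ C : ℝ, 0 ≤ C ∧
    ∀ n : ℕ, 1 ≤ n → rt Cg n ≤ C * (n : ℝ) ^ α) :
    ∃ K : ℝ, ∀ n : ℕ, 2 ≤ n → (L n : ℝ) ≤ K * (n * Real.logb 2 n ^ β) := by
  obtain ⟨C, hC, h⟩ := zr_of_rt h0.le h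
  obtain ⟨K, hK⟩ := L_le_pow h0 h1 hβ hC h
  exact ⟨K, fun n hn => (Nat.cast_le.2 (L_le_L n)).trans (hK n hn)⟩

theorem kron_of_rt {α : ℝ} (h0 : 0 < α) (h1 : α < 1) (h : ∃ C : ℝ, 0 ≤ C ∧
    ∀ n : ℕ, 1 ≤ n → rt Cg n ≤ C * (n : ℝ) ^ α) (k : ℕ) (A : Matrix (Fin k) (Fin k) ℂ) :
    ∃ K : ℝ, ∀ m : ℕ, 1 ≤ m →
      (sInf (gates fun x y : Fin m → Fin k => ∏ i, A (x i) (y i)) : ℕ) ≤
        K * (k ^ m * (m : ℝ) ^ α) := by
  rcases Nat.eq_zero_or_pos k with rfl | hk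
  · refine ⟨0, fun m hm => ?_⟩
    have h := inf_le (cost_naive fun x y : Fin m → Fin 0 => ∏ i, A (x i) (y i))
    have h0 : (0 : ℕ) ^ m = 0 := zero_pow (by omega)
    rw [Nat.le_zero.1 (h.trans (le_of_eq (by simp [h0])))]
    simp
  obtain ⟨C, hC, hz⟩ := zr_of_rt h0.le h
  obtain ⟨l, l', d, rfl⟩ := Pivot.exists_list_transvec_mul_diagonal_mul_list_transvec A
  refine ⟨(l.length * (2 * C) + (l.length + 1)) + 1 + (l'.length * (2 * C) + (l'.length + 1)),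
    fun m hm => ?_⟩
  obtain ⟨s, hs, hb⟩ := cost_word_pow h0 h1 hC hz hk (word_list l) hm
  obtain ⟨s', hs', hb'⟩ := cost_word_pow h0 h1 hC hz hk (word_list l') hm
  have hmul : ∀ A B : Matrix (Fin k) (Fin k) ℂ, tpow (A * B) m = tpow A m * tpow B m :=
    fun A B => tprod_mul (fun _ => A) fun _ => B
  have h1 := (hs.mul (tpow_diag d m ▸ Cost.diag fun x : Fin m → Fin k => ∏ i, d (x i))).mul hs'
  rw [← hmul, ← hmul] at h1
  have h2 : ((sInf (gates _) : ℕ) : ℝ) ≤ (s + Fintype.card (Fin m → Fin k) + s' : ℕ) :=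
    Nat.cast_le.2 (inf_le h1)
  have h3 : (k : ℝ) ^ m * 1 ≤ k ^ m * (m : ℝ) ^ α := mul_le_mul_of_nonneg_left
    (Real.one_le_rpow (by exact_mod_cast hm) h0.le) (by positivity)
  simp only [Fintype.card_pi, Fintype.card_fin, Finset.prod_const, Finset.card_univ] at h2
  push_cast at h2
  refine h2.trans ?_
  linarith

theorem main_no : ¬ ∃ c : ℝ, 0 < c ∧ ∃ N : ℕ, ∀ n : ℕ, N ≤ n →
    c * (n * Real.logb 2 n) ≤ L n := by
  rintro ⟨c, hc, N, h⟩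
  exact no_bound ⟨c, hc, N, fun n hn => (h n hn).trans (Nat.cast_le.2 (L_le_L n))⟩

end Vale.Agent.N344X
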