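import Mathlib

/-!
# P344: linear circuits, with the gates listed in the order of computation
-/

namespace Vale.Agent.N344X

/-- Linear circuits with inputs indexed by `ι` and `s` gates. A new gate computes `u + v`, `u - v`
or `c * u`, where `u`, `v` are the constant `0` (`none`), inputs, or earlier gates. -/
inductive Prog (ι : Type) : ℕ → Type
  | nil : Prog ι 0
  | add {s : ℕ} (p : Prog ι s) (u v : Option (ι ⊕ Fin s)) : Prog ι (s + 1)
  | sub {s : ℕ} (p : Prog ι s) (u v : Option (ι ⊕ Fin s)) : Prog ι (s + 1)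
  | smul {s : ℕ} (p : Prog ι s) (c : ℂ) (u : Option (ι ⊕ Fin s)) : Prog ι (s + 1)

/-- The value `0`, an input `x i`, or the value `w g` of a gate. -/
def val {ι : Type} {s : ℕ} (x : ι → ℂ) (w : Fin s → ℂ) : Option (ι ⊕ Fin s) → ℂ
  | none => 0
  | some (.inl i) => x i
  | some (.inr g) => w g

/-- The values of the gates on the input `x`. -/
noncomputable def Prog.run {ι : Type} (x : ι → ℂ) : {s : ℕ} → Prog ι s → Fin s → ℂ
  | _, .nil => ![]
  | _, .add p u v => Fin.snoc (p.run x) (val x (p.run x) u + val x (p.run x) v)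
  | _, .sub p u v => Fin.snoc (p.run x) (val x (p.run x) u - val x (p.run x) v)
  | _, .smul p c u => Fin.snoc (p.run x) (c * val x (p.run x) u)

/-- The numbers `s` such that a circuit with `s` gates has the outputs `A x` for every `x`. -/
def gates {ι : Type} [Fintype ι] (A : Matrix ι ι ℂ) : Set ℕ :=
  {s | ∃ (p : Prog ι s) (out : ι → Option (ι ⊕ Fin s)),
    ∀ x j, val x (p.run x) (out j) = ∑ k, A j k * x k}

/-- `L(n)`: the least number of gates for the Fourier matrix `F_n`. -/
noncomputable def L (n : ℕ) : ℕ :=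
  sInf (gates fun j k : Fin n => Complex.exp (2 * Real.pi * Complex.I / n) ^ ((j : ℕ) * (k : ℕ)))

end Vale.Agent.N344X
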