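import Vale.Agent.N344X.Net

/-!
P344: the design of 104 pairs of roots of `E8`; the other sixteen are two dual bases.
-/

namespace Vale.Agent.N344X

open Matrix Vale.Agent.P338Z.Des Vale.Agent.P338Z.Net.Cn Vale.Agent.N344 Sum

/-- The words, nine bits each. -/
def tabW : ℕ := 3868923651846194382400228510850386859836859464999448855828902683089274580754289268375635703456314988921360762876392981334345371079332045377684040359085847443027629039489849679477391790302143419422177871279886640252150991938308250670740594692334335272660554172214726468785996936911836327987094629151415546268083998590200700406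

/-- The scalar products with the first basis, plus one. -/
def tabJ : ℕ := 212318259453780640989142461319180356253985125488328694100592905694269239759646886747281028576485721589397340049571579986032576959521061804776499509662754197577759174714098435317132791853792464772888155257568456644097076960105091475209373037168555370732370107422279295077586022320297970481247517284958247240628057468641262460420590813250829499737833160832508941909434086208943819111432845749882472278300271702194947073259805465994154169294846532259240646624615292395188683051195921196388230801528588634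

/-- The scalar products with the second basis, plus one. -/
def tabG : ℕ := 259626741786691413371180982739274707100411897822751957454983407060217127417481739338883815682054368500185609229207306998486554678971675412907399673736861522217295873968740510544342227094561639594420983190414665215103958738380613760495337839415802635969263836329508849069097427683942778297957728467493067737857587604381243066681516287652488802478927095533981399435953065171792836256074235413981001486666214936735290195632032502377997630413562080292191110365769145465713314770264398302559088238407533654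

/-- A bit of a word. -/
def bt (x i : ℕ) : ℕ := (tabW >>> (9 * x + i)) % 2

/-- The scalar product of two words. -/
def bp (x y : ℕ) : ℕ := bt x 0 * bt y 0 + bt x 1 * bt y 1 + bt x 2 * bt y 2 + bt x 3 * bt y 3 +
  bt x 4 * bt y 4 + bt x 5 * bt y 5 + bt x 6 * bt y 6 + bt x 7 * bt y 7 + bt x 8 * bt y 8

/-- An entry of a table. -/
def en (t x i : ℕ) : ℤ := ((t >>> (2 * (8 * x + i))) % 4 : ℕ) - 1

/-- The data indices and the central indices. -/
abbrev Ix : Type := Fin 104 ⊕ Fin 8

/-- The number of the word of a sink. -/
def na : Ix → ℕ := Sum.elim (fun x => x) fun i => 104 + i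

/-- The number of the word of a source. -/
def nb : Ix → ℕ := Sum.elim (fun x => x) fun i => 112 + i

/-- Twice the matrix of the design. -/
def mt : Ix → Ix → ℤ
  | inl x, inl y => (if x = y then 2 else 0) - ∑ i : Fin 8, en tabJ x i * en tabG y i
  | inl x, inr i => en tabJ x i
  | inr i, inl y => 2 * en tabG y i
  | inr _, inr _ => 0

/-- The pairs which need a side wire. -/
def adj (p q : Ix) : Prop := bp (na p) (nb q) % 2 = 0 ∧ (p.isLeft ∨ q.isLeft)

instance (p q : Ix) : Decidable (adj p q) := by unfold adj; infer_instance

theorem chk1 : ∀ p q : Ix, adj p q ∨ mt p q = 0 := by decide +kernel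

theorem chk2 : ∀ x : Fin 120, bp x x % 2 = 1 ∧ ∃ i : Fin 9, bt x i = 0 := by decide +kernel

theorem chk3 : ∑ p : Ix, (Finset.univ.filter fun q : Ix => adj p q).card = 5824 := by
  decide +kernel

theorem chk4 : ∀ i : Fin 8, bp (104 + i) (112 + i) % 2 = 0 := by decide +kernel

/-- The side wires. -/
abbrev Ad : Type := {p : Ix × Ix // adj p.1 p.2}

theorem card_Ad : Fintype.card Ad = 5824 := by
  rw [Fintype.card_congr (Equiv.subtypeProdEquivSigmaSubtype adj), Fintype.card_sigma]
  simp only [Fintype.card_subtype, chk3]

theorem sk_eq {M : Type} [AddCommGroup M] [Module ℂ M] (p : Ix) (y : Ix → M) :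
    sk (fun a : Ad => a.1.1) (fun a => (mt a.1.1 a.1.2 : ℂ) / 2) p (fun a => y a.1.2) =
      ∑ q, ((mt p q : ℂ) / 2) • y q := by
  have h := Finset.sum_subtype (p := fun p : Ix × Ix => adj p.1 p.2) (F := inferInstance)
    (Finset.univ.filter fun p : Ix × Ix => adj p.1 p.2) (fun _ => by simp)
    fun a => (if a.1 = p then (mt a.1 a.2 : ℂ) / 2 else 0) • y a.2
  rw [sk, ← h, Finset.sum_filter, Fintype.sum_prod_type, Finset.sum_eq_single p]
  · refine Finset.sum_congr rfl fun q _ => ?_
    rw [if_pos rfl]
    split_ifs with h1
    · rfl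
    · rw [(chk1 p q).resolve_left h1]
      simp
  · intro p' _ hp
    simp [hp]
  · simp

/-- The design. -/
noncomputable def dx : Dx (Fin 104) Ad (Fin 8) where
  s a := a.1.1
  t a := a.1.2
  e a := (mt a.1.1 a.1.2 : ℂ) / 2
  h0 a i h := Sum.isLeft_iff.1 (a.2.2.resolve_left (by rw [h]; simp))
  id M _ _ y x := by
    simp only [sk_eq, Fintype.sum_sum_type, Sum.elim_inl, Sum.elim_inr, Pi.zero_apply, smul_zero,
      Finset.sum_const_zero, add_zero, Finset.smul_sum, smul_smul]
    rw [Finset.sum_comm, ← Finset.sum_add_distrib]
    simp only [← Finset.sum_smul, ← add_smul]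
    have h : ∀ z, (mt (inl x) (inl z) : ℂ) / 2 +
        ∑ i, (mt (inl x) (inr i) : ℂ) / 2 * ((mt (inr i) (inl z) : ℂ) / 2) =
        if x = z then 1 else 0 := fun z => by
      simp only [mt]
      push_cast
      rw [sub_div, Finset.sum_div, sub_add, ← Finset.sum_sub_distrib, Finset.sum_eq_zero
        fun i _ => by ring]
      split_ifs <;> norm_num
    simp [h]

/-- A word. -/
def wd (x : ℕ) : CL (Fin 9) := fun i => (bt x i : ZMod 2)

theorem wd_dot (x y : ℕ) : wd x ⬝ᵥ wd y = (bp x y : ZMod 2) := by
  simp only [wd, dotProduct, Fin.sum_univ_succ, bp, Finset.univ_eq_empty, Finset.sum_empty]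
  simp only [Fin.val_succ, Fin.val_zero]
  push_cast
  ring

theorem wd_self {x : ℕ} (hx : x < 120) : wd x ⬝ᵥ wd x = 1 := by
  rw [wd_dot, ← ZMod.natCast_mod, (chk2 ⟨x, hx⟩).1, Nat.cast_one]

theorem one_wd {x : ℕ} (hx : x < 120) : One (wd x) := by
  obtain ⟨q, hq⟩ := (chk2 ⟨x, hx⟩).2
  obtain ⟨b, hb, h, -⟩ := extend orth_ce (wd_self hx) (q := q) (by
    rw [ce_dot, wd, show bt x q = 0 from hq, Nat.cast_zero])
  exact ⟨b, q, hb, h⟩

theorem two_wd {x y : ℕ} (hx : x < 120) (hy : y < 120) (h : bp x y % 2 = 0) :
    Two (wd x) (wd y) := by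
  have h0 : wd x ⬝ᵥ wd y = 0 := by rw [wd_dot, ← ZMod.natCast_mod, h, Nat.cast_zero]
  obtain ⟨b, p, hb, hp⟩ := one_wd hx
  have hy := wd_self hy
  generalize wd y = y at h0 hy ⊢
  rw [← hp] at h0 ⊢
  obtain ⟨q, hq, hq'⟩ : ∃ q, q ≠ p ∧ b q ⬝ᵥ y = 0 := by
    by_contra hn
    have h1 : ∀ z : ZMod 2, ¬z = 0 → z = 1 := by decide
    have h2 : ∀ q, b q ⬝ᵥ y = if q = p then 0 else 1 := fun q => by
      split_ifs with e
      · rw [e, h0]
      · exact h1 _ fun h => hn ⟨q, e, h⟩
    have h3 : y ⬝ᵥ y = ∑ k, (b k ⬝ᵥ y) * (b k ⬝ᵥ y) := by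
      conv_lhs => rw [← hb.span y, sum_dotProduct]
      simp only [hb.span y, smul_dotProduct, smul_eq_mul]
    simp only [hy, h2] at h3
    revert h3
    fin_cases p <;> decide
  obtain ⟨b', hb', h1, h2⟩ := extend hb hy hq'
  exact ⟨b', p, q, hq.symm, hb', h2 p hq.symm h0, h1⟩

theorem na_lt (p : Ix) : na p < 120 := by
  rcases p with x | i <;> simp only [na, Sum.elim_inl, Sum.elim_inr] <;> omega

theorem nb_lt (p : Ix) : nb p < 120 := by
  rcases p with x | i <;> simp only [nb, Sum.elim_inl, Sum.elim_inr] <;> omega

end Vale.Agent.N344X
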