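import Vale.Agent.N344X.Rec
import Vale.Agent.N344X.Bridge

/-!
P344: the main statements with the exponent `1 - 1 / 26000`.
-/

namespace Vale.Agent.N344X

open Vale.Agent.P344.R2.H715 Vale.Agent.P344X18

theorem main_F : ∃ K : ℝ, ∀ n : ℕ, 2 ≤ n →
    (L n : ℝ) ≤ K * (n * Real.logb 2 n ^ (1 - 1 / 26000 : ℝ)) :=
  F_of_rt (by norm_num) (by norm_num) (by norm_num) (rt_le_pow rfl)

theorem main_kron (k : ℕ) (A : Matrix (Fin k) (Fin k) ℂ) : ∃ K : ℝ, ∀ m : ℕ, 1 ≤ m →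
    (sInf (gates fun x y : Fin m → Fin k => ∏ i, A (x i) (y i)) : ℕ) ≤
      K * (k ^ m * (m : ℝ) ^ (1 - 1 / 26000 : ℝ)) := by
  obtain ⟨C, hC, h⟩ := rt_le_pow rfl
  exact kron_of_rt (by norm_num) (by norm_num) ⟨C, hC, fun n hn => (h n hn).trans
    (mul_le_mul_of_nonneg_left
      (Real.rpow_le_rpow_of_exponent_le (by exact_mod_cast hn) (by norm_num)) hC)⟩ k A

end Vale.Agent.N344X
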