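import Vale.Agent.N344X.Stage
import Vale.Agent.N344.Net

/-!
P344: the network with three stages and central arrays of rank seven.
-/

namespace Vale.Agent.N344X

open Matrix Vale.Agent.P344.R2.H715 Vale.Agent.P344X18 Vale.Agent.P338Z Vale.Agent.P338Z.Des
  Vale.Agent.P338Z.Net.Cn Vale.Agent.N344 Sum

variable {m : ℕ} (ε : Fin m ≃ Fin 9 × Fin 9 × Fin 9)

theorem rk_neg {x x' y z : CL (Fin 9)} (hx : Two x x') (hy : One y) (hz : One z) :
    Rk 7 (-(N ε (some y) none (some z) - N ε (some y) (some x) (some z) -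
      N ε (some y) (some x') (some z))) := by
  obtain ⟨b1, p, p', hp, h1, rfl, rfl⟩ := hx
  obtain ⟨b2, q, h2, rfl⟩ := hy
  obtain ⟨b3, r, h3, rfl⟩ := hz
  have hp' := hp.symm
  refine Rk.cast (if_pos odd_neg_one) (rk_comb ε h2 h1 h3 [(1, some q, none, some r),
    (-1, some q, some p, some r), (-1, some q, some p', some r)] 7 (-1) ?_ (by simp [sz])
    (by simp; abel))
  rintro ⟨i, j, k⟩
  simp only [pw, om, Option.elim, List.map_cons, List.map_nil, List.sum_cons, List.sum_nil]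
  split_ifs <;> simp_all

variable {S A C : Type} [Fintype S] [Fintype A] [Fintype C] [DecidableEq S] [DecidableEq C]

theorem net_has (D : Dx S A C) (F : V m → ZMod 4) (U0 U1 U2 : S × S → V m → ZMod 4)
    (α0 α1 α2 β0 β1 β2 : S × S → S ⊕ C → V m → ZMod 4) (u : S × S × S → V m → ZMod 4)
    (W : S → V m → ZMod 4)
    (e : ∀ a b c, (α0 (b, c) (inl a) = u (a, b, c) ∧ α1 (a, c) (inl b) = u (a, b, c) ∧
      α2 (a, b) (inl c) = u (a, b, c)) ∧ β0 (b, c) (inl a) = u (a, b, c) ∧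
      β1 (a, c) (inl b) = u (a, b, c) ∧ β2 (a, b) (inl c) = u (a, b, c))
    (r : ∀ a b c, Rk 0 (u (a, b, c) + u (a, b, c)) ∧
      (Rk 8 (U0 (b, c) - u (a, b, c)) ∧ Rk 8 (U1 (a, c) - u (a, b, c)) ∧
        Rk 8 (U2 (a, b) - u (a, b, c))) ∧ Rk 64 (W c - U1 (a, c) - (U0 (b, c) - u (a, b, c))) ∧
      Rk 640 (F - U2 (a, b) - (W c - u (a, b, c))))
    (r1 : ∀ p q, (Rk 1 (α0 p q) ∧ Rk 1 (α1 p q) ∧ Rk 1 (α2 p q)) ∧
      Rk 1 (β0 p q) ∧ Rk 1 (β1 p q) ∧ Rk 1 (β2 p q))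
    (r2 : ∀ p, Rk 720 (F - U0 p) ∧ Rk 720 (F - U1 p) ∧ Rk 720 (F - U2 p))
    (r3 : ∀ p a, Rk 7 (U0 p - α0 p (D.s a) - β0 p (D.t a)) ∧
      Rk 7 (U1 p - α1 p (D.s a) - β1 p (D.t a)) ∧ Rk 7 (U2 p - α2 p (D.s a) - β2 p (D.t a)))
    (r5 : ∀ p i, Rk 7 (U0 p - α0 p (inr i) - β0 p (inr i)) ∧
      Rk 7 (-(U1 p - α1 p (inr i) - β1 p (inr i))) ∧ Rk 7 (U2 p - α2 p (inr i) - β2 p (inr i)))
    (r4 : Rk 729 F) {E I : Type} [Fintype E] [Fintype I] {K n : ℕ}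
    {T : Submodule ℂ (Matrix (Ar m K) I ℂ)} (H0 : Has n 0 T)
    (x : Wi S A E → Matrix (Ar m K) I ℂ) (hx : ∀ w, x w ∈ T) :
    ∃ T', (∀ w, Ph K I F (x w) ∈ T') ∧
      Has (n + 3 * (Fintype.card (S × S) *
          (2 * Fintype.card S + 4 * Fintype.card A + Fintype.card C)) +
          5 * Fintype.card (S × S × S) + Fintype.card E)
        (3 * Fintype.card S ^ 2 * stx K S A C 8 7 720 +
          2 * Fintype.card S ^ 3 * (rt Cg (64 * K) + rt Cg (640 * K)) +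
          Fintype.card E * rt Cg (729 * K) + Fintype.card (S × S × S) * rt Cg 0) T' := by
  let X : S × S × S → Matrix (Ar m K) I ℂ := fun s => Ph K I (-u s) (x (.inl (true, s)))
  let Y : S × S × S → Matrix (Ar m K) I ℂ := fun s => x (.inl (false, s))
  have e0 : ∀ p a, α0 p (inl a) = u (a, p) := fun p a => (e a p.1 p.2).1.1
  have e1 : ∀ p a, α1 p (inl a) = u (p.1, a, p.2) := fun p a => (e p.1 a p.2).1.2.1
  have e2 : ∀ p a, α2 p (inl a) = u (p.1, p.2, a) := fun p a => (e p.1 p.2 a).1.2.2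
  obtain ⟨T1, l1, a1, b1, c1, H1⟩ := rev H0 D F U0 α0 β0
    (fun p a => (e a p.1 p.2).2.1.trans (e0 p a).symm) (fun p a => (r1 p a).1.1)
    (fun p a => (r1 p a).2.1) (fun p a => e0 p a ▸ (r a p.1 p.2).2.1.1) (fun p a => (r3 p a).1)
    (fun p a => (r5 p a).1) (fun p => (r2 p).1) (fun p a => X (a, p))
    (fun p a => Y (a, p)) (fun p a => x (.inr (.inl (0, p, a))))
    (fun p a => by rw [e0, Ph_Ph (g'' := 0) (by simp), Ph_zero]; exact hx _) (fun _ _ => hx _)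
    fun _ _ => hx _
  simp only [e0] at b1
  obtain ⟨T2, l2, a2, H2⟩ := H1.step (J := S × S × S) 64
    (fun s => W s.2.2 - U1 (s.1, s.2.2) - (U0 s.2 - u s)) _ (fun s => a1 s.2 s.1)
    fun s => (r s.1 s.2.1 s.2.2).2.2.1
  obtain ⟨T3, l3, b3, H3⟩ := H2.step (J := S × S × S) 64
    (fun s => W s.2.2 - U1 (s.1, s.2.2) - (U0 s.2 - u s)) _ (fun s => l2 (b1 s.2 s.1))
    fun s => (r s.1 s.2.1 s.2.2).2.2.1
  obtain ⟨T4, l4, a4, b4, c4, H4⟩ := fwd H3 D F U1 α1 β1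
    (fun p a => (e p.1 a p.2).2.2.1.trans (e1 p a).symm) (fun p a => (r1 p a).1.2.1)
    (fun p a => (r1 p a).2.2.1) (fun p a => e1 p a ▸ (r p.1 a p.2).2.1.2.1)
    (fun p a => (r3 p a).2.1) (fun p a => (r5 p a).2.1) (fun p => (r2 p).2.1)
    (fun p a => Ph K I (W p.2 - U1 p) (X (p.1, a, p.2) - Y (p.1, a, p.2)))
    (fun p a => Ph K I (W p.2 - U1 p) (Y (p.1, a, p.2))) (fun p a => x (.inr (.inl (1, p, a))))
    (fun p a => l3 (by
      have e := a2 (p.1, a, p.2)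
      rw [Ph_Ph (g'' := u (p.1, a, p.2) + (W p.2 - U1 p)) (by simp only; abel)] at e
      rwa [e1, Ph_Ph rfl]))
    (fun p a => by
      have e := b3 (p.1, a, p.2)
      rwa [Ph_Ph (g'' := W p.2 - U1 p) (by simp)] at e)
    fun _ _ => l3 (l2 (l1 (hx _)))
  simp only [e1] at b4
  obtain ⟨T5, l5, a5, H5⟩ := H4.step (J := S × S × S) 640
    (fun s => F - U2 (s.1, s.2.1) - (W s.2.2 - u s)) _ (fun s => a4 (s.1, s.2.2) s.2.1)
    fun s => (r s.1 s.2.1 s.2.2).2.2.2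
  obtain ⟨T6, l6, b6, H6⟩ := H5.step (J := S × S × S) 640
    (fun s => F - U2 (s.1, s.2.1) - (W s.2.2 - u s)) _ (fun s => l5 (b4 (s.1, s.2.2) s.2.1))
    fun s => (r s.1 s.2.1 s.2.2).2.2.2
  obtain ⟨T7, l7, a7, b7, c7, H7⟩ := rev H6 D F U2 α2 β2
    (fun p a => (e p.1 p.2 a).2.2.2.trans (e2 p a).symm) (fun p a => (r1 p a).1.2.2)
    (fun p a => (r1 p a).2.2.2) (fun p a => e2 p a ▸ (r p.1 p.2 a).2.1.2.2)
    (fun p a => (r3 p a).2.2) (fun p a => (r5 p a).2.2) (fun p => (r2 p).2.2)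
    (fun p a => Ph K I (F - U2 p) (X (p.1, p.2, a) - Y (p.1, p.2, a)))
    (fun p a => Ph K I (F - U2 p) (X (p.1, p.2, a))) (fun p a => x (.inr (.inl (2, p, a))))
    (fun p a => l6 (by
      have e := a5 (p.1, p.2, a)
      rw [Ph_Ph rfl, Ph_Ph (g'' := u (p.1, p.2, a) + (F - U2 p)) (by simp only; abel)] at e
      rwa [e2, Ph_Ph rfl]))
    (fun p a => by
      have e := b6 (p.1, p.2, a)
      rwa [← map_add, add_sub_cancel, Ph_Ph rfl,
        Ph_Ph (g'' := F - U2 p) (by simp only; abel)] at e)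
    fun _ _ => l6 (l5 (l4 (l3 (l2 (l1 (hx _))))))
  simp only [e2] at b7
  obtain ⟨T8, l8, b8, H8⟩ := H7.step (J := S × S × S) 0 (fun s => u s + u s) _
    (fun s => b7 (s.1, s.2.1) s.2.2) fun s => (r s.1 s.2.1 s.2.2).1
  obtain ⟨T9, l9, b9, H9⟩ := H8.step (J := E) 729 (fun _ => F) (fun e => x (.inr (.inr e)))
    (fun _ => l8 (l7 (l6 (l5 (l4 (l3 (l2 (l1 (hx _))))))))) fun _ => r4
  refine ⟨T9, ?_, H9.mono (le_of_eq (by ring)) (le_of_eq ?_)⟩
  · rintro (⟨_ | _, s⟩ | ⟨j, p, a⟩ | e)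
    · have e := T7.neg_mem (a7 (s.1, s.2.1) s.2.2)
      rw [← map_sub, sub_sub_cancel_left, Ph_Ph (g'' := F) (by simp), map_neg, neg_neg] at e
      exact l9 (l8 e)
    · have e := b8 s
      rw [Ph_Ph rfl, Ph_Ph rfl, Ph_Ph (g'' := F) (by abel)] at e
      exact l9 e
    · fin_cases j
      exacts [l9 (l8 (l7 (l6 (l5 (l4 (l3 (l2 (c1 p a)))))))), l9 (l8 (l7 (l6 (l5 (c4 p a))))),
        l9 (l8 (c7 p a))]
    · exact b9 e
  · simp only [Fintype.card_prod, Nat.zero_mul]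
    push_cast
    ring

include ε in
theorem net (D : Dx S A C) (a b : S ⊕ C → CL (Fin 9)) (hab : ∀ x, b (inl x) = a (inl x))
    (h1 : ∀ x, One (a x)) (h1' : ∀ x, One (b x)) (h2 : ∀ x, Two (a (D.s x)) (b (D.t x)))
    (h3 : ∀ i, Two (a (inr i)) (b (inr i))) (E : Type) [Fintype E] [DecidableEq (Wi S A E)] :
    ∃ D0 : ℝ, 0 ≤ D0 ∧ ∀ K : ℕ, ∃ s : ℕ,
      Cost (tensor (1 : Matrix (Wi S A E) (Wi S A E) ℂ) (tpow (tpow Cg m) K)) s ∧
      (s : ℝ) ≤ (2 ^ m) ^ K * (3 * Fintype.card S ^ 2 * stx K S A C 8 7 720 +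
        2 * Fintype.card S ^ 3 * (rt Cg (64 * K) + rt Cg (640 * K)) +
        Fintype.card E * rt Cg (729 * K) + D0) := by
  set n : ℕ := Fintype.card (Wi S A E) + 3 * (Fintype.card (S × S) *
    (2 * Fintype.card S + 4 * Fintype.card A + Fintype.card C)) +
    5 * Fintype.card (S × S × S) + Fintype.card E with hn
  refine ⟨Fintype.card (S × S × S) * rt Cg 0 +
    (2 * (n : ℝ) ^ 2 + Fintype.card (Wi S A E) * (2 * n)),
    by have := rt_nonneg Cg 0; positivity, fun K => ?_⟩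
  let x : Wi S A E → Matrix (Ar m K) (Wi S A E × Ar m K) ℂ := fun w a i =>
    (1 : Matrix (Wi S A E × Ar m K) (Wi S A E × Ar m K) ℂ) (w, a) i
  have H0 : Has (Fintype.card (Wi S A E)) 0 (Submodule.span ℂ (Set.range x)) :=
    ⟨_, inferInstance, x, 0, le_rfl, Cost.one, by rw [Nat.cast_zero]; positivity, le_rfl⟩
  let t : S → Option (CL (Fin 9)) := fun z => some (a (inl z))
  have ht : ∀ z, One (a (inl z)) := fun z => h1 _
  obtain ⟨T, hT, H⟩ := net_has D (N ε none none none)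
    (fun p => N ε none (t p.1) (t p.2)) (fun p => N ε (t p.1) none (t p.2))
    (fun p => N ε (t p.1) (t p.2) none)
    (fun p q => N ε (some (a q)) (t p.1) (t p.2)) (fun p q => N ε (t p.1) (some (a q)) (t p.2))
    (fun p q => N ε (t p.1) (t p.2) (some (a q)))
    (fun p q => N ε (some (b q)) (t p.1) (t p.2)) (fun p q => N ε (t p.1) (some (b q)) (t p.2))
    (fun p q => N ε (t p.1) (t p.2) (some (b q)))
    (fun s => N ε (t s.1) (t s.2.1) (t s.2.2)) (fun z => N ε none none (t z))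
    (fun _ _ _ => ⟨⟨rfl, rfl, rfl⟩, by simp only [hab, t, and_self]⟩)
    (fun a b c => (rks ε (ht a) (ht b) (ht c)).2)
    (fun p q => ⟨⟨(rks ε (h1 q) (ht _) (ht _)).1, (rks ε (ht _) (h1 q) (ht _)).1,
      (rks ε (ht _) (ht _) (h1 q)).1⟩, (rks ε (h1' q) (ht _) (ht _)).1,
      (rks ε (ht _) (h1' q) (ht _)).1, (rks ε (ht _) (ht _) (h1' q)).1⟩)
    (fun p => (rks2 ε (ht p.1) (ht p.2)).2) (fun p q => rks3 ε (h2 q) (ht p.1) (ht p.2))
    (fun p i => ⟨(rks3 ε (h3 i) (ht p.1) (ht p.2)).1, rk_neg ε (h3 i) (ht p.1) (ht p.2),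
      (rks3 ε (h3 i) (ht p.1) (ht p.2)).2.2⟩) (rk_full ε) H0 x
    fun w => Submodule.subset_span ⟨w, rfl⟩
  obtain ⟨s, hs, hb⟩ := H.out _ hT
  refine ⟨s, ?_, hb.trans (le_of_eq ?_)⟩
  · convert hs using 1
    ext ⟨w, a⟩ ⟨w', a'⟩
    rw [St', Ph_apply, N_full, P_full, Matrix.mul_apply, tensor_apply, Matrix.one_apply]
    by_cases hw : w = w' <;> simp [x, hw, Matrix.one_apply]
  · rw [← hn]
    ring

end Vale.Agent.N344X
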