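import Vale.Agent.N344X.Des
import Vale.Agent.N344.Rec

/-!
P344: the recursion and the numbers.
-/

namespace Vale.Agent.N344X

open Matrix Vale.Agent.P344 Vale.Agent.P344.R2.H715 Vale.Agent.P344X18 Vale.Agent.N344 Sum

theorem rt_rec {S A C : Type} [Fintype S] [Fintype A] [Fintype C] [DecidableEq S] [DecidableEq C]
    (D : Dx S A C) (a b : S ⊕ C → Fin 9 → ZMod 2) (hab : ∀ x, b (inl x) = a (inl x))
    (h1 : ∀ x, One (a x)) (h1' : ∀ x, One (b x)) (h2 : ∀ x, Two (a (D.s x)) (b (D.t x)))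
    (h3 : ∀ i, Two (a (inr i)) (b (inr i))) (hS : Fintype.card S = 104)
    (hA : Fintype.card A = 5824) (hC : Fintype.card C = 8) {m : ℕ} (hm : m = 729)
    (e : ℕ) (he : 191226880 + e = 2 ^ 28) : ∃ D : ℝ, 0 ≤ D ∧ ∀ K : ℕ, rt Cg (28 + m * K) ≤
    (10816 * (624 * rt Cg (8 * K) + 34944 * rt Cg (1 * K) + 17496 * rt Cg (7 * K) +
      17472 * rt Cg (720 * K) + 208 * rt Cg (64 * K) +
      208 * rt Cg (640 * K)) + e * rt Cg (729 * K)) / 2 ^ 28 + D := by
  classical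
  obtain ⟨ε⟩ : Nonempty (Fin m ≃ Fin 9 × Fin 9 × Fin 9) :=
    ⟨Fintype.equivOfCardEq (by simp only [Fintype.card_fin, Fintype.card_prod, hm])⟩
  obtain ⟨D, hD, h⟩ := net ε D a b hab h1 h1' h2 h3 (Fin e)
  refine ⟨D / 2 ^ 28 + rt Cg 28, by have := rt_nonneg Cg 28; positivity, fun K => ?_⟩
  obtain ⟨s, hs, hb⟩ := h K
  have : Nonempty S := Fintype.card_pos_iff.1 (by omega)
  refine (rt_step (r := 28) ?_ hs hb).trans (le_of_eq ?_)
  · simp only [Fintype.card_sum, Fintype.card_prod, Fintype.card_fin, Fintype.card_bool, hS, hA]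
    omega
  · simp only [stx, Fintype.card_fin, hS, hA, hC]
    push_cast
    ring

theorem rt_le_pow {δ : ℝ} (hδ : δ = 387 / 10 ^ 7) : ∃ C : ℝ, 0 ≤ C ∧ ∀ n : ℕ, 1 ≤ n →
    rt Cg n ≤ C * (n : ℝ) ^ (1 - δ) := by
  obtain ⟨D, hD, h⟩ := rt_rec dx (fun p => wd (na p)) (fun p => wd (nb p)) (fun _ => rfl)
    (fun p => one_wd (na_lt p)) (fun p => one_wd (nb_lt p))
    (fun x => two_wd (na_lt _) (nb_lt _) x.2.1) (fun i => two_wd (na_lt _) (nb_lt _) (chk4 i))
    (Fintype.card_fin _) card_Ad (Fintype.card_fin _) rfl 77208576 (by norm_num)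
  have hδ0 : 0 ≤ δ := by rw [hδ]; norm_num
  refine rec_le' (r := 28) (m := 729) (ρ := 1 - 1 / 10 ^ 11) (rt_subadditive Cg) (rt_nonneg Cg)
    (by norm_num) (by norm_num) (by norm_num) (by norm_num) hD (by rw [hδ]; norm_num)
    fun K C hC hz => ?_
  refine (h K).trans (add_le_add ?_ le_rfl)
  obtain ⟨l1, l7, l8, -, l64, l640, l720⟩ := logs
  have hK : (0 : ℝ) ≤ C * (K : ℝ) ^ (1 - δ) := by positivity
  have key : ∀ (j : ℕ) (L : ℝ), 1 ≤ j → j ≤ 729 → Real.log 729 - Real.log j ≤ L →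
      0 ≤ L → L ≤ 7 → rt Cg (j * K) ≤ j / 729 * (1 / (1 - δ * L)) *
        (C * ((729 : ℝ) ^ (1 - δ) * (K : ℝ) ^ (1 - δ))) := fun j L h1 h2 h3 h4 h5 => by
    have h6 := mul_le_mul_of_nonneg_left (pw_le (by exact_mod_cast h1 : (0 : ℝ) < j) hδ0 h3
      (mul_nonneg hδ0 h4) (by rw [hδ]; linarith)) hK
    refine (hz j h1 h2).trans ?_
    linarith
  have a1 := key 1 _ le_rfl (by norm_num) (by exact_mod_cast l1) (by norm_num) (by norm_num)
  have a7 := key 7 _ (by norm_num) (by norm_num) l7 (by norm_num) (by norm_num)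
  have a8 := key 8 _ (by norm_num) (by norm_num) l8 (by norm_num) (by norm_num)
  have a64 := key 64 _ (by norm_num) (by norm_num) l64 (by norm_num) (by norm_num)
  have a640 := key 640 _ (by norm_num) (by norm_num) l640 (by norm_num) (by norm_num)
  have a720 := key 720 _ (by norm_num) (by norm_num) l720 (by norm_num) (by norm_num)
  have a729 := hz 729 (by norm_num) le_rfl
  have hX : (0 : ℝ) ≤ C * ((729 : ℝ) ^ (1 - δ) * (K : ℝ) ^ (1 - δ)) := by positivity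
  clear key hz h hK
  push_cast at a1 a7 a8 a64 a640 a720 a729 ⊢
  generalize C * ((729 : ℝ) ^ (1 - δ) * (K : ℝ) ^ (1 - δ)) = X at *
  subst hδ
  norm_num at a1 a7 a8 a64 a640 a720 ⊢
  rw [div_le_iff₀ (by norm_num)]
  linarith

end Vale.Agent.N344X
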