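import Vale.Agent.N344.Has

/-!
P344: one stage of the network; the central arrays are made and used through side wires.
-/

namespace Vale.Agent.N344X

open Matrix Vale.Agent.P344.R2.H715 Vale.Agent.P344X18 Vale.Agent.N344 Sum

variable {P S A C : Type} [Fintype P] [Fintype S] [Fintype A] [Fintype C] [DecidableEq S]
  [DecidableEq C]

/-- The sum of the wires with a given sink. -/
def sk {M : Type} [AddCommGroup M] [Module ℂ M] (s : A → S ⊕ C) (e : A → ℂ) (q : S ⊕ C)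
    (v : A → M) : M := ∑ a, (if s a = q then e a else 0) • v a

/-- A design with central arrays as sinks and as sources. -/
structure Dx (S A C : Type) [Fintype A] [DecidableEq S] [DecidableEq C] where
  /-- sink -/
  s : A → S ⊕ C
  /-- source -/
  t : A → S ⊕ C
  /-- entry -/
  e : A → ℂ
  h0 : ∀ a i, s a = inr i → ∃ x, t a = inl x
  id : ∀ (M : Type) [AddCommGroup M] [Module ℂ M] (y : S → M) (x : S),
    sk s e (inl x) (fun a => Sum.elim y
      (fun i => sk s e (inr i) fun a' => Sum.elim y 0 (t a')) (t a)) = y x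

variable {m K : ℕ} {I : Type} [Fintype I] {n : ℕ} {c : ℝ} {T : Submodule ℂ (Matrix (Ar m K) I ℂ)}

section
variable {M : Type} [AddCommGroup M] [Module ℂ M] {s : A → S ⊕ C} {e : A → ℂ} {q : S ⊕ C}
omit [Fintype S] [Fintype C]

theorem sk_congr {v v' : A → M} (h : ∀ a, s a = q → v a = v' a) : sk s e q v = sk s e q v' :=
  Finset.sum_congr rfl fun a _ => by
    split_ifs with h1
    · rw [h a h1]
    · rw [zero_smul, zero_smul]

theorem sk_add (v v' : A → M) : sk s e q (fun a => v a + v' a) = sk s e q v + sk s e q v' := by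
  simp only [sk, smul_add, Finset.sum_add_distrib]

theorem sk_mem {M' : Type} [AddCommGroup M'] [Module ℂ M'] (f : M →ₗ[ℂ] M') {T : Submodule ℂ M'}
    {v : A → M} (h : ∀ a, s a = q → f (v a) ∈ T) : f (sk s e q v) ∈ T := by
  rw [sk, map_sum]
  refine Submodule.sum_mem _ fun a _ => ?_
  split_ifs with h1
  · rw [map_smul]
    exact T.smul_mem _ (h a h1)
  · rw [zero_smul, map_zero]
    exact T.zero_mem

theorem sk_mem' {T : Submodule ℂ M} {v : A → M} (h : ∀ a, v a ∈ T) : sk s e q v ∈ T :=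
  sk_mem LinearMap.id fun a _ => h a

end

/-- The cost of a stage for one group. -/
noncomputable def stx (K : ℕ) (S A C : Type) [Fintype S] [Fintype A] [Fintype C]
    (a b f : ℕ) : ℝ :=
  2 * Fintype.card S * rt Cg (a * K) + Fintype.card A * (2 * rt Cg (1 * K) + rt Cg (b * K) +
    rt Cg (f * K)) + Fintype.card C * rt Cg (b * K)

/-- The upper arrays receive. -/
theorem rev (H : Has n c T) (D : Dx S A C) {a b f : ℕ} (F : V m → ZMod 4)
    (U : P → V m → ZMod 4) (α β : P → S ⊕ C → V m → ZMod 4)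
    (hab : ∀ p x, β p (inl x) = α p (inl x)) (h1 : ∀ p x, Rk 1 (α p x)) (h1' : ∀ p x, Rk 1 (β p x))
    (h2 : ∀ p x, Rk a (U p - α p (inl x))) (h3 : ∀ p x, Rk b (U p - α p (D.s x) - β p (D.t x)))
    (h4 : ∀ p i, Rk b (U p - α p (inr i) - β p (inr i))) (h5 : ∀ p, Rk f (F - U p))
    (X Y : P → S → Matrix (Ar m K) I ℂ) (d : P → A → Matrix (Ar m K) I ℂ)
    (hX : ∀ p x, Ph K I (α p (inl x)) (X p x) ∈ T) (hY : ∀ p x, Y p x ∈ T) (hd : ∀ p x, d p x ∈ T) :
    ∃ T', T ≤ T' ∧ (∀ p x, Ph K I (U p) (X p x - Y p x) ∈ T') ∧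
      (∀ p x, Ph K I (U p - α p (inl x)) (Y p x) ∈ T') ∧ (∀ p x, Ph K I F (d p x) ∈ T') ∧
      Has (n + Fintype.card P * (2 * Fintype.card S + 4 * Fintype.card A + Fintype.card C))
        (c + Fintype.card P * stx K S A C a b f) T' := by
  let σ : P → C → Matrix (Ar m K) I ℂ := fun p i =>
    sk D.s D.e (inr i) fun x => Sum.elim (Y p) 0 (D.t x)
  let γ : P → C → Matrix (Ar m K) I ℂ := fun p i => sk D.s D.e (inr i) (d p)
  let y : P → S ⊕ C → Matrix (Ar m K) I ℂ := fun p => Sum.elim (Y p) (σ p)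
  let z : P → S ⊕ C → Matrix (Ar m K) I ℂ := fun p => Sum.elim 0 (γ p)
  have hy : ∀ p q, y p q ∈ T := by
    rintro p (x | i)
    · exact hY p x
    · refine sk_mem' fun x => ?_
      rcases D.t x with x | i
      exacts [hY p x, T.zero_mem]
  have hc : ∀ p i, sk D.s D.e (inr i) (fun x => d p x + y p (D.t x)) = γ p i + σ p i :=
    fun p i => by
      rw [sk_add]
      congr 1
      refine sk_congr fun x hx => ?_
      obtain ⟨w, hw⟩ := D.h0 x i hx
      rw [hw]
      rfl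
  obtain ⟨T1, l1, m1, H1⟩ := H.step (J := P × A) 1 (fun j => α j.1 (D.s j.2))
    (fun j => d j.1 j.2 + y j.1 (D.t j.2)) (fun j => add_mem (hd ..) (hy ..)) fun _ => h1 _ _
  have m1' : ∀ p q, Ph K I (α p q) (sk D.s D.e q fun x => d p x + y p (D.t x)) ∈ T1 :=
    fun p q => sk_mem _ fun x hx => hx ▸ m1 (p, x)
  obtain ⟨T2, l2, m2, H2⟩ := H1.step (J := P × C) b
    (fun j => U j.1 - α j.1 (inr j.2) - β j.1 (inr j.2)) _ (fun j => m1' j.1 (inr j.2))
    fun _ => h4 _ _
  obtain ⟨T3, l3, m3, H3⟩ := H2.step (J := P × S) a (fun j => U j.1 - α j.1 (inl j.2))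
    (fun j => Ph K I (α j.1 (inl j.2)) (X j.1 j.2 -
      sk D.s D.e (inl j.2) fun x => d j.1 x + y j.1 (D.t x)))
    (fun j => l2 (by rw [map_sub]; exact sub_mem (l1 (hX ..)) (m1' ..))) fun _ => h2 _ _
  obtain ⟨T4, l4, m4, H4⟩ := H3.step (J := P × S) a (fun j => U j.1 - α j.1 (inl j.2))
    (fun j => Y j.1 j.2) (fun j => l3 (l2 (l1 (hY ..)))) fun _ => h2 _ _
  have m4' : ∀ p q, Ph K I (U p - β p q) (y p q + z p q) ∈ T4 := by
    rintro p (x | i)
    · rw [hab]
      simpa only [y, z, Sum.elim_inl, Pi.zero_apply, add_zero] using m4 (p, x)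
    · have e1 := l4 (l3 (m2 (p, i)))
      rwa [Ph_Ph (g'' := U p - β p (inr i)) (by simp only; abel), hc, add_comm] at e1
  obtain ⟨T5, l5, m5, H5⟩ := H4.step (J := P × A) b
    (fun j => U j.1 - α j.1 (D.s j.2) - β j.1 (D.t j.2)) _ (fun j => l4 (l3 (l2 (m1 j))))
    fun _ => h3 _ _
  obtain ⟨T6, l6, m6, H6⟩ := H5.step (J := P × A) 1 (fun j => β j.1 (D.t j.2))
    (fun j => Ph K I (U j.1 - β j.1 (D.t j.2)) (d j.1 j.2 - z j.1 (D.t j.2)))
    (fun j => by
      have e1 := sub_mem (m5 j) (l5 (m4' j.1 (D.t j.2)))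
      rwa [Ph_Ph (g'' := U j.1 - β j.1 (D.t j.2)) (by abel), ← map_sub, add_sub_add_comm,
        add_comm, ← add_sub_add_comm, add_comm (y _ _), add_sub_add_comm, sub_self, add_zero] at e1)
    fun _ => h1' _ _
  have m6' : ∀ p x, Ph K I (U p) (d p x - z p (D.t x)) ∈ T6 := fun p x => by
    have e1 := m6 (p, x)
    rwa [Ph_Ph (g'' := U p) (by simp)] at e1
  have m6z : ∀ p q, Ph K I (U p) (z p q) ∈ T6 := by
    rintro p (x | i)
    · simp only [z, Sum.elim_inl, Pi.zero_apply, map_zero, zero_mem]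
    · refine sk_mem _ fun x hx => ?_
      obtain ⟨w, hw⟩ := D.h0 x i hx
      simpa only [hw, z, Sum.elim_inl, Pi.zero_apply, sub_zero] using m6' p x
  have m6d : ∀ p x, Ph K I (U p) (d p x) ∈ T6 := fun p x => by
    have e1 := add_mem (m6' p x) (m6z p (D.t x))
    rwa [← map_add, sub_add_cancel] at e1
  obtain ⟨T7, l7, m7, H7⟩ := H6.step (J := P × A) f (fun j => F - U j.1) _
    (fun j => m6d j.1 j.2) fun _ => h5 _
  refine ⟨T7, (((((l1.trans l2).trans l3).trans l4).trans l5).trans l6).trans l7, fun p x => l7 ?_,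
    fun p x => l7 (l6 (l5 (m4 (p, x)))), fun p x => ?_, H7.mono (le_of_eq ?_) (le_of_eq ?_)⟩
  · have e1 := l6 (l5 (l4 (m3 (p, x))))
    rw [Ph_Ph (g'' := U p) (by simp)] at e1
    have e3 := add_mem e1 (sk_mem (s := D.s) (e := D.e) (q := inl x) _ fun w _ => m6d p w)
    rw [← map_add, sk_add, D.id] at e3
    convert e3 using 2
    abel
  · have e1 := m7 (p, x)
    rwa [Ph_Ph (g'' := F) (by simp)] at e1
  · simp only [Fintype.card_prod]
    ring
  · simp only [Fintype.card_prod, stx]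
    push_cast
    ring

/-- The lower arrays receive. -/
theorem fwd (H : Has n c T) (D : Dx S A C) {a b f : ℕ} (F : V m → ZMod 4)
    (U : P → V m → ZMod 4) (α β : P → S ⊕ C → V m → ZMod 4)
    (hab : ∀ p x, β p (inl x) = α p (inl x)) (h1 : ∀ p x, Rk 1 (α p x)) (h1' : ∀ p x, Rk 1 (β p x))
    (h2 : ∀ p x, Rk a (U p - α p (inl x))) (h3 : ∀ p x, Rk b (U p - α p (D.s x) - β p (D.t x)))
    (h4 : ∀ p i, Rk b (-(U p - α p (inr i) - β p (inr i)))) (h5 : ∀ p, Rk f (F - U p))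
    (X Y : P → S → Matrix (Ar m K) I ℂ) (d : P → A → Matrix (Ar m K) I ℂ)
    (hX : ∀ p x, Ph K I (α p (inl x)) (X p x) ∈ T) (hY : ∀ p x, Y p x ∈ T) (hd : ∀ p x, d p x ∈ T) :
    ∃ T', T ≤ T' ∧ (∀ p x, Ph K I (U p) (X p x) ∈ T') ∧
      (∀ p x, Ph K I (U p - α p (inl x)) (Y p x + X p x) ∈ T') ∧ (∀ p x, Ph K I F (d p x) ∈ T') ∧
      Has (n + Fintype.card P * (2 * Fintype.card S + 4 * Fintype.card A + Fintype.card C))
        (c + Fintype.card P * stx K S A C a b f) T' := by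
  let σ : P → C → Matrix (Ar m K) I ℂ := fun p i =>
    sk D.s D.e (inr i) fun x => Sum.elim (X p) 0 (D.t x)
  let γ : P → C → Matrix (Ar m K) I ℂ := fun p i => sk D.s D.e (inr i) (d p)
  let y : P → S ⊕ C → Matrix (Ar m K) I ℂ := fun p => Sum.elim (X p) (σ p)
  let z : P → S ⊕ C → Matrix (Ar m K) I ℂ := fun p => Sum.elim 0 (γ p)
  let w : P → A → Matrix (Ar m K) I ℂ := fun p x => d p x + z p (D.t x) + y p (D.t x)
  have hz : ∀ p q, z p q ∈ T := by
    rintro p (x | i)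
    exacts [T.zero_mem, sk_mem' (hd p)]
  have hw : ∀ p x u, D.t x = inl u → w p x = d p x + X p u := fun p x u h => by
    simp only [w, z, y, h, Sum.elim_inl, Pi.zero_apply, add_zero]
  have hc : ∀ p i, sk D.s D.e (inr i) (w p) = γ p i + σ p i := fun p i => by
    rw [← sk_add]
    refine sk_congr fun x hx => ?_
    obtain ⟨u, hu⟩ := D.h0 x i hx
    rw [hw p x u hu, hu]
    rfl
  obtain ⟨T1, l1, m1, H1⟩ := H.step (J := P × A) 1 (fun j => β j.1 (D.t j.2))
    (fun j => d j.1 j.2) (fun j => hd ..) fun _ => h1' _ _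
  obtain ⟨T2, l2, m2, H2⟩ := H1.step (J := P × S) a (fun j => U j.1 - α j.1 (inl j.2)) _
    (fun j => l1 (hX j.1 j.2)) fun _ => h2 _ _
  have m2' : ∀ p x, Ph K I (U p) (X p x) ∈ T2 := fun p x => by
    have e1 := m2 (p, x)
    rwa [Ph_Ph (g'' := U p) (by simp)] at e1
  obtain ⟨T3, l3, m3, H3⟩ := H2.step (J := P × {x // (D.t x).isLeft}) b
    (fun j => U j.1 - α j.1 (D.s j.2) - β j.1 (D.t j.2))
    (fun j => Ph K I (β j.1 (D.t j.2)) (w j.1 j.2))
    (fun j => l2 (by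
      obtain ⟨u, hu⟩ := Sum.isLeft_iff.1 j.2.2
      rw [hw _ _ u hu, map_add]
      refine add_mem (m1 (j.1, j.2)) (l1 ?_)
      rw [hu, hab]
      exact hX ..)) fun _ => h3 _ _
  have m3' : ∀ p x, (D.t x).isLeft → Ph K I (U p - α p (D.s x)) (w p x) ∈ T3 := fun p x hx => by
    have e1 := m3 (p, ⟨x, hx⟩)
    rwa [Ph_Ph (g'' := U p - α p (D.s x)) (by simp)] at e1
  obtain ⟨T4, l4, m4, H4⟩ := H3.step (J := P × C) b
    (fun j => -(U j.1 - α j.1 (inr j.2) - β j.1 (inr j.2)))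
    (fun j => Ph K I (U j.1 - α j.1 (inr j.2)) (sk D.s D.e (inr j.2) (w j.1)))
    (fun j => sk_mem _ fun x hx => hx ▸ m3' j.1 x (Sum.isLeft_iff.2 (D.h0 x _ hx)))
    fun _ => h4 _ _
  obtain ⟨T5, l5, m5, H5⟩ := H4.step (J := P × {x // ¬(D.t x).isLeft}) b
    (fun j => U j.1 - α j.1 (D.s j.2) - β j.1 (D.t j.2))
    (fun j => Ph K I (β j.1 (D.t j.2)) (w j.1 j.2))
    (fun j => by
      obtain ⟨i, hi⟩ := Sum.isRight_iff.1 (Sum.not_isLeft.1 j.2.2)
      have e1 := m4 (j.1, i)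
      rw [Ph_Ph (g'' := β j.1 (inr i)) (by simp only; abel), hc] at e1
      have e2 := l4 (l3 (l2 (m1 (j.1, j.2))))
      simp only [w, hi] at e2 ⊢
      rw [add_assoc, map_add]
      exact add_mem e2 e1) fun _ => h3 _ _
  have m5' : ∀ p x, Ph K I (U p - α p (D.s x)) (w p x) ∈ T5 := fun p x => by
    by_cases hx : (D.t x).isLeft
    · exact l5 (l4 (m3' p x hx))
    · have e1 := m5 (p, ⟨x, hx⟩)
      rwa [Ph_Ph (g'' := U p - α p (D.s x)) (by simp)] at e1
  have l05 : T ≤ T5 := (((l1.trans l2).trans l3).trans l4).trans l5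
  obtain ⟨T6, l6, m6, H6⟩ := H5.step (J := P × S) a (fun j => U j.1 - α j.1 (inl j.2))
    (fun j => Y j.1 j.2 - sk D.s D.e (inl j.2) fun x => d j.1 x + z j.1 (D.t x))
    (fun j => l05 (sub_mem (hY ..) (sk_mem' fun x => add_mem (hd ..) (hz ..)))) fun _ => h2 _ _
  obtain ⟨T7, l7, m7, H7⟩ := H6.step (J := P × A) 1 (fun j => α j.1 (D.s j.2)) _
    (fun j => l6 (m5' j.1 j.2)) fun _ => h1 _ _
  have m7' : ∀ p x, Ph K I (U p) (w p x) ∈ T7 := fun p x => by
    have e1 := m7 (p, x)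
    rwa [Ph_Ph (g'' := U p) (by simp)] at e1
  have m7x : ∀ p x, Ph K I (U p) (X p x) ∈ T7 := fun p x => l7 (l6 (l5 (l4 (l3 (m2' p x)))))
  have m7d : ∀ p x, Ph K I (U p) (d p x) ∈ T7 := fun p x => by
    have e1 := m7' p x
    rcases hx : D.t x with u | i
    · have e2 := sub_mem e1 (m7x p u)
      rwa [hw p x u hx, ← map_sub, add_sub_cancel_right] at e2
    · have e2 := sub_mem e1 (sk_mem (s := D.s) (e := D.e) (q := inr i) _ fun u _ => m7' p u)
      rw [hc, ← map_sub] at e2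
      simp only [w, hx] at e2
      rwa [add_assoc, show z p (inr i) + y p (inr i) = γ p i + σ p i from rfl,
        add_sub_cancel_right] at e2
  obtain ⟨T8, l8, m8, H8⟩ := H7.step (J := P × A) f (fun j => F - U j.1) _
    (fun j => m7d j.1 j.2) fun _ => h5 _
  have hA := Fintype.card_subtype_compl fun x => (D.t x).isLeft
  have hA' := Fintype.card_subtype_le fun x => (D.t x).isLeft
  have hA2 : Fintype.card A = Fintype.card {x // (D.t x).isLeft} +
    Fintype.card {x // ¬(D.t x).isLeft} := by omega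
  refine ⟨T8, ((l05.trans l6).trans l7).trans l8, fun p x => l8 (m7x p x),
    fun p x => l8 (l7 ?_), fun p x => ?_, H8.mono (le_of_eq ?_) (le_of_eq ?_)⟩
  · have e3 := add_mem (m6 (p, x)) (sk_mem (s := D.s) (e := D.e) (q := inl x)
      (Ph K I (U p - α p (inl x))) fun u hu => hu ▸ l6 (m5' p u))
    rw [← map_add, sk_add (fun u => d p u + z p (D.t u)), D.id] at e3
    convert e3 using 2
    abel
  · have e1 := m8 (p, x)
    rwa [Ph_Ph (g'' := F) (by simp)] at e1
  · simp only [Fintype.card_prod]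
    rw [hA2]
    ring
  · simp only [Fintype.card_prod, stx]
    rw [hA2]
    push_cast
    ring

end Vale.Agent.N344X
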